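import Vale.Agent.P366B.Rows
import Vale.Agent.P366Q.O.Phi0
import Vale.Agent.P366Q.G.Int
import Vale.Agent.P366M.SkE

/-!
# P366E: the normalisation of the defining function and the constants of the bending
-/

open Metric Filter Topology Set
open scoped ContDiff
open Vale.Agent.P366 Vale.Agent.P366.Stmt Vale.Agent.P366Z Vale.Agent.P366D

noncomputable section

namespace Vale.Agent.P366M.G

/-- the row `BDC` for a normalised defining function -/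
def BDC0 : Prop := ∀ (n : ℕ) (M : Type) [Mfe n M] (B : Bg n M) U a β R s' (a₀ δ₀ R' R₁ C : ℝ),
  B.Ok → St B U a β R s' → 0 < a₀ → a₀ ≤ a → δ₀ ∈ Ioo (0 : ℝ) 1 → Sm B a₀ δ₀ → B.ρ ≤ R' →
  R' < R₁ → ∃ δ > (0 : ℝ), ∀ (N : ℕ) (s : Fin N → ℝ) (c : Fin N → M → ℝ) (φ : M → ℝ),
    Cov B.g C δ R' s c → IsExt φ → (∃ x, φ x = 0) → (∀ x, 0 ≤ φ x → 0 ≤ B.F x) →
    (∀ x, φ x ≤ 1) → (∀ x, R' ≤ ‖px x‖ → φ x = 1) →
    (∀ x, φ x = 0 → (∃ j, 1 < c j x) ∨ mcw B.g U φ x < 0) → ∀ η' > (0 : ℝ),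
      ∃ (h : M → ℝ) (βh t : ℝ), Smooth h ∧ (∀ x, 0 < h x ∧ h x ≤ 1) ∧ (∀ x, 0 ≤ wl B.g U h x) ∧
        (∀ x, R₁ ≤ ‖px x‖ → wl B.g U h x = 0) ∧ Asy (fun x => h x * U x) a βh ∧ 0 < t ∧
        (∀ x, φ x ≤ t → h x ≤ η') ∧ Rig (fun x => U x * (1 + (1 - δ₀) * h x) / 2) R₁

/-- the identity below one half, one above one -/
def nrv (v : ℝ) : ℝ := v + Real.smoothTransition (2 * v - 1) * (1 - v)

theorem cd_nrv : ContDiff ℝ ∞ nrv := contDiff_id.add ((Real.smoothTransition.contDiff.comp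
  ((contDiff_const.mul contDiff_id).sub contDiff_const)).mul (contDiff_const.sub contDiff_id))

theorem nrv_lo {v : ℝ} (h : v ≤ 1 / 2) : nrv v = v := by
  rw [nrv, Real.smoothTransition.zero_of_nonpos (by linarith), zero_mul, add_zero]

theorem nrv_hi {v : ℝ} (h : 1 ≤ v) : nrv v = 1 := by
  rw [nrv, Real.smoothTransition.one_of_one_le (by linarith)]
  ring

theorem nrv_mem (v : ℝ) : nrv v ≤ 1 ∧ (1 / 2 ≤ v → 1 / 2 ≤ nrv v) := by
  rcases le_total v 1 with h | h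
  · have h1 := Real.smoothTransition.nonneg (2 * v - 1)
    have h2 := Real.smoothTransition.le_one (2 * v - 1)
    unfold nrv
    exact ⟨by nlinarith, fun _ => by nlinarith⟩
  · rw [nrv_hi h]
    exact ⟨le_rfl, fun _ => by norm_num⟩

variable {n : ℕ} {M D : Type} [Mfe n M] [Mfe n D] {g : Fld n M} {U φ : M → ℝ} {x : M}

theorem mcw_smul {t : ℝ} (t0 : 0 < t) : mcw g U (fun y => t * φ y) x = mcw g U φ x := by
  unfold mcw
  congr 1
  funext i y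
  have e : gr g (fun y => t * φ y) i y = t * gr g φ i y := by
    simp only [gr, pd_const_mul, Finset.mul_sum, mul_left_comm]
  rw [e, gn_of_pd (pd_const_mul t), abs_of_pos t0, mul_left_comm, mul_div_mul_left _ _ t0.ne']

theorem bdc_of0 (H : BDC0) : BDC := fun n M _ B U a β R s' a₀ δ₀ R' R₁ C h1 h2 h3 h4 h5 h6 h7 h8 => by
  obtain ⟨δ, δ0, hδ⟩ := H n M B U a β R s' a₀ δ₀ R' R₁ C h1 h2 h3 h4 h5 h6 h7 h8
  refine ⟨δ, δ0, fun N s c φ k1 ⟨k2, k3, k4, r, k5⟩ ⟨x₀, k6⟩ k7 ⟨t, t0, k8⟩ k9 η η0 => ?_⟩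
  have t1 := inv_pos.2 t0
  have sφ : Smooth fun x => t⁻¹ * φ x := CD.mul cd_const k2
  have e0 : ∀ x, 0 ≤ nrv (t⁻¹ * φ x) ↔ 0 ≤ φ x := fun x => by
    rw [← mul_nonneg_iff_of_pos_left (b := φ x) t1]
    rcases le_total (t⁻¹ * φ x) (1 / 2) with m | m
    · rw [nrv_lo m]
    · exact iff_of_true (by linarith [(nrv_mem _).2 m]) (by linarith)
  have e1 : ∀ x, nrv (t⁻¹ * φ x) = 0 → φ x = 0 ∧
      (fun x => nrv (t⁻¹ * φ x)) =ᶠ[𝓝 x] fun x => t⁻¹ * φ x := fun x hx => by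
    have m : t⁻¹ * φ x < 1 / 2 := not_le.1 fun m => by linarith [(nrv_mem _).2 m]
    exact ⟨(mul_eq_zero.1 ((nrv_lo m.le).symm.trans hx)).resolve_left t1.ne',
      (sφ.cont.continuousAt.eventually (gt_mem_nhds m)).mono fun y hy => nrv_lo hy.le⟩
  obtain ⟨h, βh, t', m1, m2, m3, m4, m5, m6, m7, m8⟩ := hδ N s c (fun x => nrv (t⁻¹ * φ x)) k1
    ⟨cd_nrv.compM sφ, fun x hx => (k3 x (e1 x hx).1).imp fun i hi => by
      rw [pd_congr (e1 x hx).2, pd_const_mul]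
      exact mul_ne_zero t1.ne' hi, by simpa only [e0] using k4, r, fun x hx =>
        ((e0 x).2 (k5 x hx).le).lt_of_ne' fun m => (k5 x hx).ne' (e1 x m).1⟩
    ⟨x₀, by rw [k6, mul_zero, nrv_lo (by norm_num)]⟩ (fun x hx => k7 x ((e0 x).1 hx))
    (fun x => (nrv_mem _).1) (fun x hx => nrv_hi ((le_inv_mul_iff₀ t0).2 (by linarith [k8 x hx])))
    (fun x hx => (k9 x (e1 x hx).1).imp_right fun m => by
      rwa [mcw_congr (e1 x hx).2, mcw_smul t1]) η η0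
  refine ⟨h, βh, t * min t' (1 / 2), m1, m2, m3, m4, m5, by positivity, fun x hx => m7 x ?_, m8⟩
  have m := (inv_mul_le_iff₀ t0).2 hx
  rw [nrv_lo (m.trans (min_le_right _ _))]
  exact m.trans (min_le_left _ _)

namespace Db

variable {ps : M → ℝ} {Ra R l R' T : ℝ} {π : D → M} {s : D → ℝ} {σ : M → D} {τ : D → D}
  (H : Db φ ps Ra R l π s σ τ) (r : Rd φ R' R T)
include H r

theorem ps_eq (h : φ x < 1) : ps =ᶠ[𝓝 x] φ :=
  (ev_px_lt (not_le.1 fun k => h.ne (r.one x k))).mono fun y hy => H.inn y (hy.le.trans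
    (le_of_sq_le_sq (by linarith [r.T1, r.T2]) r.R0.2))

theorem ps_zero (hφ : IsExt φ) (hx : ps x = 0) :
    ‖px x‖ < R' ∧ φ x = 0 ∧ ∃ i, pd i ps x ≠ 0 := by
  have h : φ x < 1 := by linarith [H.le x]
  have e := H.ps_eq r h
  have k := e.self_of_nhds.symm.trans hx
  exact ⟨not_le.1 fun m => h.ne (r.one x m), k, (hφ.2.1 x k).imp fun i hi => pd_congr e i ▸ hi⟩

theorem kb (hn : 3 ≤ n) (hg : Met g) (hU : Smooth U) (U0 : ∀ x, 0 < U x) (hφ : IsExt φ)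
    {Z : Set M} (hZ : IsClosed Z) (h : ∀ x ∈ Z, φ x = 0 → mcw g U φ x < 0) :
    ∃ d C c l₁, Kb (cf U g) ps Z d C c l₁ := by
  have hG := hg.cf hU U0
  refine exists_kb hG H.smp hZ ((isCompact_px M R').of_isClosed_subset
    ((isClosed_le continuous_const H.smp.cont).inter (isClosed_le H.smp.cont continuous_const))
    fun x hx => not_lt.1 fun k => by linarith [r.one x k.le, H.le x, hx.2]) fun x hx => ?_
  obtain ⟨-, k1, k2⟩ := H.ps_zero r hφ hx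
  have k3 := (gn_nonneg _ _ _).lt_of_ne' ((gn_ne hG).2 k2)
  refine ⟨hG.gn_sq ps x ▸ pow_pos k3 2, fun hx' => ?_⟩
  rw [mc_eq hG H.smp k3.ne', mc_cf hg hn U0, mcw_congr (H.ps_eq r (by linarith))]
  exact mul_neg_of_pos_of_neg (pow_pos k3 3)
    (mul_neg_of_pos_of_neg (Real.rpow_pos_of_pos (U0 x) _) (h x hx' k1))

end Db

namespace St

variable {B : Bg n M} {a β R s' : ℝ} (hB : B.Ok) (hS : St B U a β R s')
include hB hS

theorem lap_le (hx : B.ρ ≤ ‖px x‖) : lap B.g U x ≤ 0 :=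
  (hS.sup x).trans (mul_nonpos_of_nonpos_of_nonneg (hB.Qf x hx).2 (hS.pos hB x).le)

theorem q (r : ℝ) : ∃ q, ∀ x, ‖px x‖ ≤ r → -(q * U x) ≤ lap B.g U x := by
  have U0 := hS.pos hB
  have sQ : Smooth fun x => lap B.g U x / U x :=
    CD.div (hB.met.sm_lap hS.sm) hS.sm fun x => (U0 x).ne'
  obtain ⟨q, hq⟩ := (isCompact_px M r).exists_bound_of_continuousOn sQ.cont.continuousOn
  refine ⟨q, fun x hx => ?_⟩
  rw [← neg_mul, ← le_div_iff₀ (U0 x)]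
  exact (abs_le.1 (hq x hx)).1

theorem wa : Wa B.g U := by
  obtain ⟨C, hC⟩ := hS.asy.fd_bdd hB.dim hS.sm
  obtain ⟨C', hC'⟩ := hB.Qd
  have U0 := hS.pos hB
  refine wa_of hB.met hS.sm (half_pos hS.a0) (A := max 2 (max C C')) (S := B.δ * 2) (R := R)
    (fun x => ⟨hS.half hB x, le_max_of_le_left (hS.le_two hB x)⟩) fun x hx =>
      ⟨le_max_of_le_right (le_max_of_le_left (hC x)), ?_, ?_⟩
  · rw [fd_congr (g := B.Q) ((ev_lt_px hx).mono fun y hy => by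
      simp only [hS.eqn y hy.le, mul_div_cancel_right₀ _ (U0 y).ne'])]
    exact le_max_of_le_right (le_max_of_le_right (hC' x))
  · obtain ⟨k1, k2⟩ := hB.Qf x (hS.Rρ.trans hx.le)
    rw [hS.eqn x hx.le, abs_mul, abs_of_nonpos k2, abs_of_pos (U0 x), mul_right_comm]
    exact mul_le_mul (neg_le.1 k1) (hS.le_two hB x) (U0 x).le (by linarith)

end St

end Vale.Agent.P366M.G
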