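import Vale.Agent.P366E.Lv
import Vale.Agent.P366B.Defs
import Vale.Agent.P366M.End1

/-!
# P366E: the double with three sheets exists
-/

open Metric Filter Topology Set Matrix
open scoped ContDiff
open Vale.Agent.P366 Vale.Agent.P366.Stmt Vale.Agent.P366D Vale.Agent.P366N

noncomputable section

namespace Vale.Agent.P366M.Lv

/-- the profile with two folds -/
def qq (t : ℝ) : ℝ :=
  (1 - Real.smoothTransition (-t - 2)) * t ^ 2 + Real.smoothTransition (-t - 2) * (t + 7)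

theorem cd_qq : ContDiff ℝ ∞ qq := by
  have : ContDiff ℝ ∞ fun t : ℝ => Real.smoothTransition (-t - 2) :=
    Real.smoothTransition.contDiff.comp (contDiff_id.neg.sub contDiff_const)
  exact ((contDiff_const.sub this).mul (contDiff_id.pow 2)).add
    (this.mul (contDiff_id.add contDiff_const))

theorem qq_up {t : ℝ} (h : -2 ≤ t) : qq t = t ^ 2 := by
  rw [qq, Real.smoothTransition.zero_of_nonpos (by linarith)]; ring

theorem qq_low {t : ℝ} (h : t ≤ -3) : qq t = t + 7 := by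
  rw [qq, Real.smoothTransition.one_of_one_le (by linarith)]; ring

theorem qq_mid {t : ℝ} (h : -3 ≤ t) (h' : t ≤ -2) : 4 ≤ qq t ∧ qq t ≤ 9 := by
  have h1 := Real.smoothTransition.nonneg (-t - 2)
  have h2 := sub_nonneg.2 (Real.smoothTransition.le_one (-t - 2))
  have h3 : 0 ≤ t ^ 2 - 4 := by nlinarith
  have h4 : 0 ≤ 9 - t ^ 2 := by nlinarith
  unfold qq
  constructor <;> nlinarith [mul_nonneg h2 h3, mul_nonneg h2 h4, mul_nonneg h1 (sub_nonneg.2 h),
    mul_nonneg h1 (sub_nonneg.2 h')]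

theorem qq_le {t : ℝ} (h : t ≤ 0) : qq t ≤ 9 := by
  rcases le_total (-2) t with k | k
  · rw [qq_up k]; nlinarith
  · rcases le_total (-3) t with l | l
    · exact (qq_mid l k).2
    · rw [qq_low l]; linarith

variable {n : ℕ} {M : Type} [Mfe n M]

theorem smP_yp {y : E n} (h : R0 M ≤ ‖y‖) : SmP (yp : E n → M) y :=
  (smP_symm (ch_mem (ye Mfe.o y)) y).congr (symm_ev h).symm

/-- the retraction onto the ball of radius `r` -/
theorem exists_rt {r : ℝ} (hr : R0 M ≤ r) : ∃ ρ : M → M, Continuous ρ ∧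
    (∀ z, ‖px z‖ ≤ r → ρ z = z) ∧ ∀ z, r ≤ ‖px z‖ → ‖px (ρ z)‖ = r := by
  have h0 := R0_ge M
  have h1 : ∀ z : M, r ≤ ‖px z‖ → ‖(r / ‖px z‖) • px z‖ = r := fun z hz => by
    rw [norm_smul, Real.norm_of_nonneg (div_nonneg (by linarith) (norm_nonneg _)),
      div_mul_cancel₀ _ (by linarith)]
  refine ⟨fun z => if ‖px z‖ ≤ r then z else yp ((r / ‖px z‖) • px z), continuous_if_le cont_npx
    continuous_const continuousOn_id (fun z hz => ?_) fun z hz => ?_, fun z hz => if_pos hz,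
    fun z hz => ?_⟩
  · have hz' : r ≤ ‖px z‖ := hz
    exact (ContinuousAt.comp (g := yp) (f := fun z : M => (r / ‖px z‖) • px z)
      (smP_yp (hr.trans (h1 z hz).ge)).ct ((continuousAt_const.div cont_npx.continuousAt
        (by linarith)).smul cont_px.continuousAt)).continuousWithinAt
  · rw [hz, div_self (by linarith), one_smul, yp_px (by linarith)]
  · dsimp only
    split_ifs with k
    · exact le_antisymm k hz
    · rw [px_yp (by rw [h1 z hz]; linarith), h1 z hz]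

/-- the hypotheses on the defining function -/
structure Hy (φ ps : M → ℝ) (r R : ℝ) : Prop where
  ext : IsExt φ
  zero : ∃ z, φ z = 0
  r0 : R0 M ≤ r
  rR : r ≤ R
  sm : P366M.Smooth ps
  inn : ∀ z, ‖px z‖ ≤ R → ps z = φ z
  le : ∀ z, φ z ≤ ps z
  one : ∀ z, r ≤ ‖px z‖ → φ z = 1
  two : ∀ z, ‖px z‖ ^ 2 ≤ R ^ 2 + 1 → ps z ≤ 2
  far : ∀ z, R ^ 2 + 1 ≤ ‖px z‖ ^ 2 → ps z = 1 + (‖px z‖ ^ 2 - R ^ 2)

theorem exists_hy {φ : M → ℝ} {r R : ℝ} (h1 : IsExt φ) (h2 : ∃ z, φ z = 0) (h3 : ∀ z, φ z ≤ 1)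
    (h4 : ∀ z, r ≤ ‖px z‖ → φ z = 1) (h5 : R0 M ≤ r) (h6 : r ≤ R) : ∃ ps, Hy φ ps r R := by
  have h0 := R0_ge M
  have a1 : P366M.Smooth fun z : M => ‖px z‖ ^ 2 - R ^ 2 := contDiff_normSq.sub cd_const
  refine ⟨fun z => φ z + (‖px z‖ ^ 2 - R ^ 2) * Real.smoothTransition (‖px z‖ ^ 2 - R ^ 2), h1, h2,
    h5, h6, h1.1.add (a1.mul (Real.smoothTransition.contDiff.compM a1)), fun z hz => ?_,
    fun z => le_add_of_nonneg_right ?_, h4, fun z hz => ?_, fun z hz => ?_⟩
  · rw [Real.smoothTransition.zero_of_nonpos (by nlinarith [norm_nonneg (px z)]), mul_zero,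
      add_zero]
  · rcases le_total (‖px z‖ ^ 2 - R ^ 2) 0 with k | k
    · rw [Real.smoothTransition.zero_of_nonpos k, mul_zero]
    · exact mul_nonneg k (Real.smoothTransition.nonneg _)
  · nlinarith [Real.smoothTransition.nonneg (‖px z‖ ^ 2 - R ^ 2),
      Real.smoothTransition.le_one (‖px z‖ ^ 2 - R ^ 2), h3 z]
  · rw [Real.smoothTransition.one_of_one_le (by linarith), mul_one,
      h4 z (h6.trans (by nlinarith [norm_nonneg (px z)]))]

namespace Hy

variable {φ ps : M → ℝ} {r R : ℝ} (h : Hy φ ps r R)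
include h

theorem R8 : 8 ≤ R := ((R0_ge M).trans h.r0).trans h.rR

theorem ge {z : M} (hz : r ≤ ‖px z‖) : 1 ≤ ps z := (h.one z hz).ge.trans (h.le z)

theorem nonneg {z : M} (hz : 0 ≤ ps z) : 0 ≤ φ z := by
  rcases le_total ‖px z‖ r with k | k
  · rwa [← h.inn z (k.trans h.rR)]
  · rw [h.one z k]; exact zero_le_one

theorem lt {z : M} (hz : 2 < ps z) : R ^ 2 + 1 < ‖px z‖ ^ 2 := not_le.1 fun k => (h.two z k).not_gt hz

theorem bd {z : M} {c : ℝ} (hc : 2 ≤ c) : ps z ≤ c ↔ ‖px z‖ ^ 2 ≤ R ^ 2 + (c - 1) := by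
  rcases le_total (‖px z‖ ^ 2) (R ^ 2 + 1) with k | k
  · exact iff_of_true ((h.two z k).trans hc) (by linarith)
  · rw [h.far z k]
    constructor <;> intro <;> linarith

theorem reg (z : M) (t : ℝ) (e : qq t = ps z) (hd : deriv qq t = 0) : ∃ i, pd i ps z ≠ 0 := by
  have h8 := h.R8
  rcases lt_or_ge (-2) t with k | k
  · have k1 : qq =ᶠ[𝓝 t] fun u => u ^ 2 := (lt_mem_nhds k).mono fun u hu => qq_up hu.le
    rw [k1.deriv_eq] at hd
    obtain rfl : t = 0 := by simpa using hd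
    rw [qq_up k.le] at e
    have k2 : ‖px z‖ < R := not_le.1 fun l => by nlinarith [h.ge (h.rR.trans l)]
    obtain ⟨i, hi⟩ := h.ext.2.1 z (by rw [← h.inn z k2.le, ← e]; norm_num)
    exact ⟨i, by rwa [pd_congr ((ev_px_lt k2).mono fun w hw => h.inn w hw.le)]⟩
  · rcases lt_or_ge t (-3) with l | l
    · have k1 : qq =ᶠ[𝓝 t] fun u => u + 7 := (gt_mem_nhds l).mono fun u hu => qq_low hu.le
      rw [k1.deriv_eq] at hd
      simp at hd
    · have k1 := h.lt (z := z) (by linarith [(qq_mid l k).1])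
      have k2 : R0 M ≤ ‖px z‖ := (h.r0.trans h.rR).trans (by nlinarith [norm_nonneg (px z)])
      obtain ⟨i, hi⟩ : ∃ i, px z i ≠ 0 := by
        by_contra m
        push Not at m
        exact px_ne k2 (by ext i; exact m i)
      refine ⟨i, ?_⟩
      have k3 : ps =ᶠ[𝓝 z] fun w => ‖px w‖ ^ 2 + (1 - R ^ 2) :=
        ((cont_npx.pow 2).continuousAt.eventually (lt_mem_nhds k1)).mono fun w hw => by
          rw [h.far w hw.le]; ring
      rw [pd_congr k3, pd_add (contDiff_normSq.diff z) (dAt_const _), pd_const, pd_normSq k2]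
      simpa using hi

theorem closed : IsClosed (S qq ps) :=
  isClosed_eq (cd_qq.continuous.comp continuous_snd) (h.sm.cont.comp continuous_fst)

theorem cpt (ρ : ℝ) : IsCompact {p : S qq ps | ‖px p.1.1‖ ≤ ρ} := by
  obtain ⟨C, hC⟩ := (isCompact_px M ρ).exists_bound_of_continuousOn h.sm.cont.continuousOn
  refine (h.closed.isClosedEmbedding_subtypeVal.isCompact_preimage ((isCompact_px M ρ).prod
    (isCompact_Icc (a := -(C + 7)) (b := C + 7)))).of_isClosed_subset
    (isClosed_le (cont_npx.comp (by fun_prop)) continuous_const) fun p hp => ⟨hp, ?_⟩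
  have k1 : qq p.1.2 = ps p.1.1 := p.2
  obtain ⟨k2, k3⟩ := abs_le.1 (hC _ hp)
  rcases le_total (-2) p.1.2 with k | k
  · rw [qq_up k] at k1
    constructor <;> nlinarith
  · rcases le_total (-3) p.1.2 with l | l
    · constructor <;> linarith
    · rw [qq_low l] at k1
      constructor <;> linarith

theorem conn (hn : 0 < n) : ConnectedSpace (S qq ps) := by
  have h8 := h.R8
  obtain ⟨z₀, hz₀⟩ := h.zero
  have r1 : R ≤ √(R ^ 2 + 3) := Real.le_sqrt_of_sq_le (by linarith)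
  obtain ⟨ρ, ρ1, ρ2, ρ3⟩ := exists_rt (M := M) ((h.r0.trans h.rR).trans r1)
  have b4 : ∀ z, ps z ≤ 4 ↔ ‖px z‖ ≤ √(R ^ 2 + 3) := fun z => by
    rw [h.bd (by norm_num), Real.le_sqrt (norm_nonneg _) (by positivity)]
    norm_num
  have ρ4 : ∀ z, ps (ρ z) ≤ 4 := fun z => (b4 _).2 (by
    rcases le_total ‖px z‖ √(R ^ 2 + 3) with k | k
    · rwa [ρ2 z k]
    · exact (ρ3 z k).le)
  have ρ5 : ∀ z, 0 ≤ φ z → 0 ≤ ps (ρ z) := fun z hz => by
    rcases le_total ‖px z‖ √(R ^ 2 + 3) with k | k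
    · rw [ρ2 z k]; exact hz.trans (h.le z)
    · exact zero_le_one.trans (h.ge (by rw [ρ3 z k]; exact h.rR.trans r1))
  have z1 : ‖px z₀‖ ≤ R := not_lt.1 fun k => by linarith [h.one z₀ (h.rR.trans k.le)]
  have z2 : ps z₀ = 0 := (h.inn _ z1).trans hz₀
  have hs := h.sm.cont
  let A := (fun z => (z, √(ps z))) '' {z | 0 ≤ φ z}
  let B := (fun z => (ρ z, -√(ps (ρ z)))) '' {z | 0 ≤ φ z}
  let C := range fun z => (ρ z, ps (ρ z) - 7)
  let K := fun w : E n => (fun t => ((yp (√(qq t - 1 + R ^ 2) • w) : M), t)) '' Icc (-3) (-2)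
  have n1 : ∀ w : E n, ‖w‖ = 1 → ∀ t ∈ Icc (-3 : ℝ) (-2), R0 M ≤ ‖√(qq t - 1 + R ^ 2) • w‖ ∧
      ps (yp (√(qq t - 1 + R ^ 2) • w)) = qq t := fun w hw t ht => by
    have k1 := (qq_mid ht.1 ht.2).1
    have k2 : ‖√(qq t - 1 + R ^ 2) • w‖ = √(qq t - 1 + R ^ 2) := by
      rw [norm_smul, hw, mul_one, Real.norm_of_nonneg (Real.sqrt_nonneg _)]
    have k3 : R0 M ≤ ‖√(qq t - 1 + R ^ 2) • w‖ := by
      rw [k2]
      exact (h.r0.trans h.rR).trans (Real.le_sqrt_of_sq_le (by linarith))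
    have k4 : ‖px (yp (√(qq t - 1 + R ^ 2) • w) : M)‖ ^ 2 = qq t - 1 + R ^ 2 := by
      rw [px_yp (by linarith), k2, Real.sq_sqrt (by nlinarith)]
    exact ⟨k3, by rw [h.far _ (by linarith), k4]; ring⟩
  have hA : IsPreconnected A := h.ext.2.2.1.2.image _ (by fun_prop)
  have hB : IsPreconnected B := h.ext.2.2.1.2.image _ (by fun_prop)
  have hC : IsPreconnected C := isPreconnected_range (by fun_prop)
  have hK : ∀ w, ‖w‖ = 1 → IsPreconnected (K w) := fun w hw => isPreconnected_Icc.image _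
    fun t ht => ((ContinuousAt.comp (g := yp) (f := fun t => √(qq t - 1 + R ^ 2) • w)
      (smP_yp (n1 w hw t ht).1).ct (((cd_qq.continuous.sub continuous_const).add continuous_const).sqrt.smul
        continuous_const).continuousAt).prodMk continuousAt_id).continuousWithinAt
  have mB : ∀ z t, -2 ≤ t → t ≤ 0 → t ^ 2 = ps z → (z, t) ∈ B := fun z t k1 k2 k3 =>
    ⟨z, h.nonneg (k3 ▸ sq_nonneg t), by
      simp only [ρ2 z ((b4 z).1 (by nlinarith)), ← k3, Real.sqrt_sq_eq_abs, abs_of_nonpos k2,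
        neg_neg]⟩
  have mC : ∀ z t, t ≤ -3 → t + 7 = ps z → (z, t) ∈ C := fun z t k1 k2 =>
    ⟨z, by simp only [ρ2 z ((b4 z).1 (by linarith)), ← k2, add_sub_cancel_right]⟩
  have KB : ∀ w, ‖w‖ = 1 → ∃ p, p ∈ B ∧ p ∈ K w := fun w hw =>
    ⟨_, mB _ (-2) le_rfl (by norm_num) ((qq_up le_rfl).symm.trans
      (n1 w hw (-2) ⟨by norm_num, le_rfl⟩).2.symm), -2, ⟨by norm_num, le_rfl⟩, rfl⟩
  have KC : ∀ w, ‖w‖ = 1 → ∃ p, p ∈ K w ∧ p ∈ C := fun w hw =>
    ⟨_, ⟨-3, ⟨le_rfl, by norm_num⟩, rfl⟩, mC _ (-3) le_rfl ((qq_low le_rfl).symm.trans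
      (n1 w hw (-3) ⟨le_rfl, by norm_num⟩).2.symm)⟩
  have p0 : (z₀, (0 : ℝ)) ∈ B := mB _ _ (by norm_num) le_rfl (by rw [z2]; norm_num)
  have sub : ∀ w, ‖w‖ = 1 → A ∪ B ∪ K w ∪ C ⊆ S qq ps ∧ (z₀, (0 : ℝ)) ∈ A ∪ B ∪ K w ∪ C ∧
      IsPreconnected (A ∪ B ∪ K w ∪ C) := fun w hw => by
    obtain ⟨p, p1, p2⟩ := KB w hw
    obtain ⟨p', p3, p4⟩ := KC w hw
    refine ⟨?_, Or.inl (Or.inl (Or.inr p0)), .union p' (Or.inr p3) p4 (.union p (Or.inr p1) p2
      (.union (z₀, 0) ⟨z₀, hz₀.ge, by simp [z2]⟩ p0 hA hB) (hK w hw)) hC⟩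
    rintro _ (((⟨z, k, rfl⟩ | ⟨z, k, rfl⟩) | ⟨t, k, rfl⟩) | ⟨z, rfl⟩)
    · exact (qq_up (by linarith [Real.sqrt_nonneg (ps z)])).trans (Real.sq_sqrt (k.trans (h.le z)))
    · exact (qq_up (neg_le_neg (Real.sqrt_le_iff.2 ⟨by norm_num, by linarith [ρ4 z]⟩))).trans
        ((neg_sq _).trans (Real.sq_sqrt (ρ5 z k)))
    · exact (n1 w hw t k).2.symm
    · exact (qq_low (by linarith [ρ4 z])).trans (by ring)
  have w0 : ‖EuclideanSpace.single (⟨0, hn⟩ : Fin n) (1 : ℝ)‖ = 1 := by simp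
  refine isConnected_iff_connectedSpace.1 ⟨⟨_, (sub _ w0).1 (sub _ w0).2.1⟩,
    isPreconnected_of_forall (z₀, 0) fun p hp => ?_⟩
  suffices ∃ w, ‖w‖ = 1 ∧ p ∈ A ∪ B ∪ K w ∪ C by
    obtain ⟨w, w1, w2⟩ := this
    exact ⟨_, (sub w w1).1, (sub w w1).2.1, w2, (sub w w1).2.2⟩
  obtain ⟨z, t⟩ := p
  have e : qq t = ps z := hp
  rcases le_total (-2) t with k | k
  · rw [qq_up k] at e
    rcases le_total 0 t with l | l
    · exact ⟨_, w0, Or.inl (Or.inl (Or.inl ⟨z, h.nonneg (e ▸ sq_nonneg t), by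
        simp only [← e, Real.sqrt_sq l]⟩))⟩
    · exact ⟨_, w0, Or.inl (Or.inl (Or.inr (mB z t k l e)))⟩
  · rcases le_total (-3) t with l | l
    · have k1 := h.lt (z := z) (by linarith [(qq_mid l k).1])
      have k2 : R ≤ ‖px z‖ := by nlinarith [norm_nonneg (px z)]
      have k3 : ‖px z‖ ≠ 0 := by linarith
      refine ⟨‖px z‖⁻¹ • px z, by simp [norm_smul, k3], Or.inl (Or.inr ⟨t, ⟨l, k⟩, ?_⟩)⟩
      simp only [e, h.far z k1.le, add_sub_cancel_left, sub_add_cancel,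
        Real.sqrt_sq (norm_nonneg _), smul_smul, mul_inv_cancel₀ k3, one_smul]
      rw [yp_px (by linarith [h.r0, h.rR])]
    · exact ⟨_, w0, Or.inr (mC z t l ((qq_low l).symm.trans e))⟩

theorem db (hn : 0 < n) {l : ℝ} (hl : 0 < l) : ∃ (D : Type) (_ : Mfe n D) (π : D → M) (s : D → ℝ)
    (σ : M → D) (τ : D → D), G.Db φ ps (r + 11 / l) R l π s σ τ := by
  classical
  have := h.conn hn
  have h8 := R0_ge M
  have hr := h.r0
  obtain ⟨p₀⟩ : Nonempty (S qq ps) := inferInstance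
  let σ : M → S qq ps := fun z => if k : 0 ≤ ps z then ⟨(z, √(ps z)),
    (qq_up (by linarith [Real.sqrt_nonneg (ps z)])).trans (Real.sq_sqrt k)⟩ else p₀
  let τ : S qq ps → S qq ps := fun p => if k : |p.1.2| ≤ 2 then ⟨(p.1.1, -p.1.2),
    (qq_up (neg_le_neg (abs_le.1 k).2)).trans ((neg_sq _).trans
      ((qq_up (abs_le.1 k).1).symm.trans p.2))⟩ else p
  have s1 : ∀ z, 0 ≤ ps z → (σ z).1 = (z, √(ps z)) := fun z k => by simp only [σ, k, dif_pos]
  have s2 : ∀ z, 0 < ps z → ∀ᶠ w in 𝓝 z, (σ w).1 = (w, √(ps w)) := fun z k =>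
    (h.sm.cont.continuousAt.eventually (lt_mem_nhds k)).mono fun w hw => s1 w hw.le
  have s3 : ∀ z, 0 < ps z → ContinuousAt σ z := fun z k =>
    IsInducing.subtypeVal.continuousAt_iff.2
      ((continuous_id.prodMk h.sm.cont.sqrt).continuousAt.congr (EventuallyEq.symm (s2 z k)))
  have s4 : ∀ p : S qq ps, 0 ≤ p.1.2 → σ p.1.1 = p := fun p k => by
    have e : p.1.2 ^ 2 = ps p.1.1 := (qq_up (by linarith)).symm.trans p.2
    exact Subtype.ext (by rw [s1 _ (e ▸ sq_nonneg _), ← e, Real.sqrt_sq k])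
  have t1 : ∀ p : S qq ps, |p.1.2| < 2 → ∀ᶠ p' in 𝓝 p, (τ p').1 = (p'.1.1, -p'.1.2) := fun p k =>
    ((continuous_snd.comp continuous_subtype_val).abs.continuousAt.eventually
      (gt_mem_nhds k)).mono fun p' hp' => by
        have : |p'.1.2| ≤ 2 := le_of_lt hp'
        simp only [τ, this, dif_pos]
  have y1 : ∀ y : E n, l * r < ‖y‖ → r < ‖l⁻¹ • y‖ := fun y hy => by
    rwa [norm_smul, norm_inv, Real.norm_of_nonneg hl.le, lt_inv_mul_iff₀ hl]
  have y2 : ∀ y : E n, l * r < ‖y‖ → px (yp (l⁻¹ • y) : M) = l⁻¹ • y := fun y hy =>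
    px_yp (by linarith [y1 y hy])
  have y3 : ∀ y : E n, l * r < ‖y‖ → 0 < ps (yp (l⁻¹ • y)) := fun y hy =>
    one_pos.trans_le (h.ge (by rw [y2 y hy]; exact (y1 y hy).le))
  have y4 : ∀ y : E n, l * r < ‖y‖ → SmP (fun z : E n => (yp (l⁻¹ • z) : M)) y := fun y hy =>
    (smP_yp (hr.trans (y1 y hy).le)).comp (contDiffAt_id.const_smul _)
  have y5 : ∀ z : M, ‖l • px z‖ = l * ‖px z‖ := fun z => by
    rw [norm_smul, Real.norm_of_nonneg hl.le]
  have c1 : Continuous fun p : S qq ps => px p.1.1 := cont_px.comp (by fun_prop)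
  have c2 : Continuous fun p : S qq ps => p.1.2 := by fun_prop
  let Y : Ch n (S qq ps) :=
    { toFun p := l • px p.1.1
      invFun y := σ (yp (l⁻¹ • y))
      source := {p | r < ‖px p.1.1‖ ∧ 0 < p.1.2}
      target := {y | l * r < ‖y‖}
      map_source' p hp := by
        rw [mem_ofPred_eq, y5]
        exact mul_lt_mul_of_pos_left hp.1 hl
      map_target' y hy := by
        rw [mem_ofPred_eq, s1 _ (y3 y hy).le, y2 y hy]
        exact ⟨y1 y hy, Real.sqrt_pos.2 (y3 y hy)⟩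
      left_inv' p hp := by
        rw [inv_smul_smul₀ hl.ne', yp_px (by linarith [hp.1]), s4 p hp.2.le]
      right_inv' y hy := by rw [s1 _ (y3 y hy).le, y2 y hy, smul_inv_smul₀ hl.ne']
      open_source := (isOpen_lt continuous_const c1.norm).inter (isOpen_lt continuous_const c2)
      open_target := isOpen_lt continuous_const continuous_norm
      continuousOn_toFun := (c1.const_smul l).continuousOn
      continuousOn_invFun y hy := (ContinuousAt.comp (g := σ) (f := fun z : E n => yp (l⁻¹ • z))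
        (s3 _ (y3 y hy)) (y4 y hy).ct).continuousWithinAt }
  have hY : Good Y := by
    refine ⟨fun y hy => (y4 y hy).congr ?_, fun y hy => (((y4 y hy).cAt le_rfl
      h.sm.contDiffAt).sqrt (y3 y hy).ne').congr_of_eventuallyEq ?_, fun p hp =>
      ⟨fun w => l • w.1, contDiffAt_fst.const_smul l, ?_⟩⟩
    · exact ((y4 y hy).ct.eventually (s2 _ (y3 y hy))).mono fun z hz => congrArg Prod.fst hz
    · exact ((y4 y hy).ct.eventually (s2 _ (y3 y hy))).mono fun z hz => congrArg Prod.snd hz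
    · have k1 : R0 M ≤ ‖px p.1.1‖ := hr.trans hp.1.le
      have k2 : ∀ᶠ z in 𝓝 p.1.1, px z = ch p.1.1 z := ev_pt.2 (by
        rw [pt_far k1]
        filter_upwards [ball_mem_nhds _ (show (0 : ℝ) < 5 by norm_num)] with z hz
        rw [px_symm k1 hz, right_inv (ch_mem _)])
      exact ((continuous_fst.comp continuous_subtype_val).continuousAt.eventually k2).mono
        fun z hz => congrArg (l • ·) hz
  let P : Pre n (S qq ps) Unit :=
    { A := atl cd_qq h.sm h.reg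
      Y := fun _ => Y
      R₁ := l * r
      R1 := mul_nonneg hl.le (by linarith)
      mx := fun _ => Atl.mx _ hY
      tg := fun _ => rfl
      dj := fun _ _ k => (k rfl).elim
      cl := fun _ ρ hρ => by
        convert (isClosed_le continuous_const (g := fun p : S qq ps => ‖l • px p.1.1‖)
          (f := fun _ => ρ) (c1.const_smul l).norm).inter
          (isClosed_le continuous_const (f := fun _ => (0 : ℝ)) c2) using 1
        ext p
        refine ⟨fun k => ⟨k.2, k.1.2.le⟩, fun k => ⟨?_, k.1⟩⟩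
        have k1 : r < ‖px p.1.1‖ := lt_of_mul_lt_mul_left (y5 _ ▸ hρ.trans_le k.1) hl.le
        refine ⟨k1, lt_of_le_of_ne k.2 fun e => ?_⟩
        have := (qq_up (t := p.1.2) (by linarith)).symm.trans p.2
        rw [← e] at this
        linarith [h.ge k1.le]
      cpt := fun ρ hρ => (h.cpt (max (ρ / l) (R + 3))).of_isClosed_subset (by
        convert ((isOpen_lt continuous_const (g := fun p : S qq ps => ‖l • px p.1.1‖)
          (f := fun _ => ρ) (c1.const_smul l).norm).inter Y.open_source).isClosed_compl using 1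
        ext p
        exact ⟨fun k m => (k () m.2).not_gt m.1, fun k _ m => not_lt.1 fun m' => k ⟨m', m⟩⟩)
        fun p hp => by
          by_cases k : p ∈ Y.source
          · exact le_max_of_le_left ((le_div_iff₀' hl).2 (y5 _ ▸ hp () k))
          · refine le_max_of_le_right (show ‖px p.1.1‖ ≤ R + 3 from ?_)
            rcases not_and_or.1 k with m | m
            · linarith [le_of_not_gt m, h.rR]
            · have := (h.bd (z := p.1.1) (c := 9) (by norm_num)).1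
                (p.2.symm.trans_le (qq_le (le_of_not_gt m)))
              nlinarith [h.R8] }
  obtain ⟨D, I, e, e1, -, e2, e3, -⟩ := P.exists_mfe'
  have m := md (hq := cd_qq) (hp := h.sm) (reg := h.reg) e1
  refine ⟨D, I, fun x => (e.symm x).1.1, fun x => (e.symm x).1.2, fun z => e (σ z),
    fun x => e (τ (e.symm x)), h.sm, h.inn, h.le, m.smπ, m.sms, m.imm, fun x x' k1 k2 =>
    e.symm.injective (Subtype.ext (Prod.ext k1 k2)), fun x k => (qq_up k).symm.trans (e.symm x).2,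
    fun z k => ?_, fun x k => ?_, hl, ?_, fun y hy => ?_⟩
  · simp only [e.symm_apply_apply, s1 z k.le, true_and]
    refine m.lift M σ z (s3 z k) ((smM_id z).congr ((s2 z k).mono fun w hw => ?_))
      ((h.sm.contDiffAt.sqrt k.ne').congr_of_eventuallyEq ((s2 z k).mono fun w hw => ?_))
    · exact congrArg Prod.fst hw
    · exact congrArg Prod.snd hw
  · have k1 := e.symm.continuous.continuousAt.eventually (t1 _ k)
    simp only [e.symm_apply_apply, k1.self_of_nhds, true_and]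
    refine m.lift D (fun x => τ (e.symm x)) x (IsInducing.subtypeVal.continuousAt_iff.2
      (((m.smπ x).ct.prodMk m.sms.cont.neg.continuousAt).congr (EventuallyEq.symm k1)))
      ((m.smπ x).congr (k1.mono fun w hw => ?_))
      (m.sms.contDiffAt.neg.congr_of_eventuallyEq (k1.mono fun w hw => ?_))
    · exact (congrArg Prod.fst hw :)
    · exact congrArg Prod.snd hw
  · rw [e2, mul_add, mul_div_cancel₀ _ hl.ne']
    show l * r + 10 + 1 ≤ _
    linarith
  · rw [e3]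
    show e (σ (yp (l⁻¹ • l • y))) = _
    rw [inv_smul_smul₀ hl.ne']

end Hy

end Vale.Agent.P366M.Lv

namespace Vale.Agent.P366M.G

/-- **DB** -/
theorem db : DB := fun n M _ φ R' Ra R hn h1 h2 h3 h4 h5 h6 h7 => by
  obtain ⟨ps, h⟩ := Lv.exists_hy h1 h2 h3 h4 h5 h7
  have h0 : 0 < Ra - R' := sub_pos.2 h6
  obtain ⟨D, I, π, s, σ, τ, k⟩ := h.db (by omega) (show 0 < 11 / (Ra - R') by positivity)
  rw [show R' + 11 / (11 / (Ra - R')) = Ra by field_simp; ring] at k
  exact ⟨D, I, ps, _, π, s, σ, τ, k⟩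

end Vale.Agent.P366M.G
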