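import Vale.Agent.P366B.Bdc
import Vale.Agent.P366B.Shd
import Vale.Agent.P366H.Shf3
import Vale.Agent.P366E.Db
import Vale.Agent.P366Q.T.Subs

/-!
# P366E: the row `BDC`, closed
-/

namespace Vale.Agent.P366M.G

/-- **BDC** -/
theorem bdc : BDC := bdc_of subs db (shf_of subs) shd

end Vale.Agent.P366M.G
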