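import Vale.Agent.P366E.Sc
import Vale.Agent.P366B.Pot
import Vale.Agent.P366B.Bend

/-!
# P366E: the lower bound and the neck bound for the potential on the double
-/

open Metric Filter Topology Set
open scoped ContDiff
open Vale.Agent.P366 Vale.Agent.P366.Stmt Vale.Agent.P366Z Vale.Agent.P366D

noncomputable section

namespace Vale.Agent.P366M.G

variable {n : ℕ} {M D : Type} [Mfe n M] [Mfe n D]

theorem wmp_lap {g : Fld n M} {u : M → ℝ} {O C : Set M} (hn : 3 ≤ n) (hg : Met g) (hO : IsOpen O)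
    (hC : IsClosed C) (hs : O ⊆ C) (h1 : ∀ x ∈ C, CAt 2 u x) (h2 : ∀ x ∈ O, lap g u x ≤ 0)
    (h3 : ∀ x ∈ C, x ∉ O → 0 ≤ u x) (h4 : ∀ e > 0, ∃ R, ∀ x ∈ O, R ≤ ‖px x‖ → -e ≤ u x) :
    ∀ x ∈ C, 0 ≤ u x :=
  wmp_cl (c := fun _ => 0) hn hg (U := fun _ => 1) cd_const (fun _ => one_pos) hO hC hs
    (fun y hy => (h1 y hy).continuousAt.continuousWithinAt)
    (fun y hy => ⟨h1 y (hs hy), le_rfl, by rw [wl_one, zero_mul]; exact h2 y hy⟩) h3 h4

/-- the lower bound of a positive superharmonic function outside a ball -/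
theorem low_out {g : Fld n M} {u : M → ℝ} {ρ r a : ℝ} (hn : 3 ≤ n) (hg : Met g) (hf : Flat g ρ)
    (hr : ρ ≤ r) (a0 : 0 ≤ a) (h1 : ∀ x, r ≤ ‖px x‖ → CAt 2 u x ∧ 0 ≤ u x)
    (h2 : ∀ x, r < ‖px x‖ → lap g u x ≤ 0) (h3 : Tendsto u (cocompact M) (𝓝 a)) (x : M)
    (hx : r ≤ ‖px x‖) : a * (1 - (r / ‖px x‖) ^ (n - 2 : ℝ)) ≤ u x := by
  have r0 := hf.pos.trans_le hr
  have nz : ∀ y : M, r ≤ ‖px y‖ → px y ≠ 0 := fun y hy => norm_pos_iff.1 (r0.trans_le hy)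
  have e1 : ∀ y : M, (r / ‖px y‖) ^ (n - 2 : ℝ) = r ^ (n - 2 : ℝ) * ‖px y‖ ^ (2 - n : ℝ) :=
    fun y => by
      rw [Real.div_rpow r0.le (norm_nonneg _), div_eq_mul_inv, ← Real.rpow_neg (norm_nonneg _),
        neg_sub]
  have c1 : ∀ y : M, r ≤ ‖px y‖ → CAt 2 (fun y : M => ‖px y‖ ^ (2 - n : ℝ)) y := fun y hy =>
    contDiffAt_norm_rpow (nz y hy) two_le_oo _
  have := wmp_lap (u := fun y => 1 * u y + a * r ^ (n - 2 : ℝ) * ‖px y‖ ^ (2 - n : ℝ) + -a)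
    hn hg (isOpen_lt continuous_const cont_npx) (isClosed_le continuous_const cont_npx)
    (fun y (hy : r < ‖px y‖) => hy.le) (fun y hy => ((cAt_const.mul (h1 y hy).1).add
      (cAt_const.mul (c1 y hy))).add cAt_const) (fun y hy => ?_) (fun y hy k => ?_)
    (fun e he => ?_) x hx
  · rw [e1]
    linarith
  · have y1 : r < ‖px y‖ := hy
    rw [lap_add_const, hg.lap_lin (h1 y y1.le).1 (c1 y y1.le), hf.lap_eq (hr.trans_lt y1)
      fun y => ‖px y‖ ^ (2 - n : ℝ), lap_eu_rpow (hf.far (hr.trans y1.le))]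
    simp only [sub_add_cancel, sub_self, mul_zero, zero_mul]
    linarith [h2 y y1]
  · have y1 : ‖px y‖ = r := le_antisymm (not_lt.1 k) hy
    rw [mul_assoc, ← e1, y1, div_self r0.ne', Real.one_rpow]
    linarith [(h1 y hy).2]
  · obtain ⟨R, hR⟩ := ev_cocompact.1 (h3.eventually (lt_mem_nhds (sub_lt_self a he)))
    refine ⟨R, fun y _ hy => ?_⟩
    have k : a - e < u y := hR y hy
    have k1 : 0 ≤ a * r ^ (n - 2 : ℝ) * ‖px y‖ ^ (2 - n : ℝ) := by positivity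
    linarith

/-- the choice of the radius of the shield -/
theorem exists_T {U : M → ℝ} {a η : ℝ} (hn : 3 ≤ n) (a0 : 0 < a) (η0 : 0 < η)
    (h : Tendsto U (cocompact M) (𝓝 a)) (r : ℝ) : ∃ T₀, ∀ z : M, T₀ ≤ ‖px z‖ →
      (1 - η) * U z ≤ a * (1 - (r / ‖px z‖) ^ (n - 2 : ℝ)) := by
  have n3 : (3 : ℝ) ≤ n := by exact_mod_cast hn
  have t := ((tendsto_const_nhds (x := r)).div_atTop (tendsto_npx (M := M))).rpow_const
    (p := n - 2) (Or.inr (by linarith))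
  rw [Real.zero_rpow (by linarith)] at t
  exact ev_cocompact.1 (((h.const_mul (1 - η)).eventually_lt ((t.const_sub 1).const_mul a)
    (by nlinarith [mul_pos a0 η0])).mono fun _ => le_of_lt)

/-- the hypotheses about the upper sheet -/
structure Up (π : D → M) (s : D → ℝ) (g : Fld n M) (U : M → ℝ) (G : Fld n D) (a R' : ℝ) : Prop where
  flat : ∃ ρ ≤ R', Flat g ρ
  a0 : 0 ≤ a
  sup : ∀ z, R' < ‖px z‖ → lap g U z ≤ 0
  lim : Tendsto U (cocompact M) (𝓝 a)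
  iso : ∀ q, 1 ≤ s q → IsoM π (cf U g) G q

namespace Db

variable {φ ps : M → ℝ} {Ra R l : ℝ} {π : D → M} {s : D → ℝ} {σ : M → D} {τ : D → D}
  (H : Db φ ps Ra R l π s σ τ) {g : Fld n M} {U : M → ℝ} {G : Fld n D} {a c R' T e e' : ℝ}
  (r : Rd φ R' R T) {y : D → ℝ} {q : D} {z : M}
include H r

theorem one_le (hz : R' ≤ ‖px z‖) : π (σ z) = z ∧ 1 ≤ s (σ z) ∧ SmM σ z := by
  have k := (r.one z hz).ge.trans (H.le z)
  obtain ⟨k1, k2, k3⟩ := H.πσ z (one_pos.trans_le k)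
  exact ⟨k1, k2 ▸ Real.one_le_sqrt.2 k, k3⟩

theorem lt_r (h : -2 ≤ s q) (h' : s q ^ 2 < 1) : ‖px (π q)‖ < R' := not_le.1 fun k => by
  linarith [H.sq q h, H.le (π q), r.one _ k]

variable (F : Fr φ Ra l π g U c G) (P : Up π s g U G a R')
include F P

/-- the equation on the upper sheet -/
theorem wl_σ (hy : Smooth y) (hz : R' ≤ ‖px z‖) :
    wl g U (fun x => y (σ x)) z = U z ^ (n * bb n) * lap G y (σ z) := by
  obtain ⟨k1, k2, k3⟩ := H.one_le r hz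
  have U0 := F.wa.wt.pos
  rw [(P.iso _ k2).lap (u := fun x => y (σ x)) (by rw [k1]; exact k3.cAt two_le_oo (hy.c2 _))
    ((H.σπ_ev (one_pos.trans_le k2)).mono fun p hp => by simp only [hp]), k1,
    F.met.lap_cf F.dim U0, ← mul_assoc, ← Real.rpow_add (U0 z), add_neg_cancel, Real.rpow_zero,
    one_mul]

theorem low_σ (hy : Smooth y) (h0 : ∀ q, 1 ≤ s q → lap G y q = 0) {b κ : ℝ}
    (hl : Tendsto y (cocompact D) (𝓝 1)) (c0 : 0 ≤ κ + b) (h1 : ∀ q, 1 ≤ s q → 0 ≤ κ * y q + b)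
    (hz : R' ≤ ‖px z‖) :
    a * (κ + b) * (1 - (R' / ‖px z‖) ^ (n - 2 : ℝ)) ≤ U z * (κ * y (σ z) + b) := by
  obtain ⟨ρ, ρ1, ρ2⟩ := P.flat
  have U0 := F.wa.wt.pos
  have sU := F.wa.wt.sm
  have c2 : ∀ x, R' ≤ ‖px x‖ → CAt 2 (fun x => κ * y (σ x) + b) x := fun x hx =>
    (cAt_const.mul ((H.one_le r hx).2.2.cAt two_le_oo (hy.c2 _))).add cAt_const
  refine low_out (u := fun x => U x * (κ * y (σ x) + b)) F.dim F.met ρ2 ρ1
    (mul_nonneg P.a0 c0) (fun x hx => ⟨(sU.c2 x).mul (c2 x hx),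
      mul_nonneg (U0 x).le (h1 _ (H.one_le r hx).2.1)⟩) (fun x hx => ?_) ?_ z hz
  · rw [F.met.lap_mul_wl (sU.c2 x) (c2 x hx.le) (U0 x).ne', wl_affine, H.wl_σ r F P hy hx.le,
      h0 _ (H.one_le r hx.le).2.1]
    simpa using mul_nonpos_of_nonneg_of_nonpos (h1 _ (H.one_le r hx.le).2.1) (P.sup x hx)
  · simpa using P.lim.mul (((hl.comp (H.tendsto_σ F)).const_mul κ).add_const b)

variable (Y : Py π s G T e y) (e0 : 0 ≤ e')
  (hT : ∀ z : M, ‖px z‖ ^ 2 = T → (1 - e') * U z ≤ a * (1 - (R' / ‖px z‖) ^ (n - 2 : ℝ)))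
include Y e0 hT

/-- **the sign on the upper sheet** -/
theorem up_pos (hq : 0 ≤ s q) : 0 ≤ 2 * y q - 1 + e' := by
  have h0 : ∀ q, 0 ≤ s q → lap G y q = 0 := fun q hq =>
    Y.harm q ⟨by linarith, fun k => absurd k hq.not_gt⟩
  have fold := Y.lo e' fun p p0 p1 => by
    have m := H.low_σ r F P Y.sm (fun x hx => h0 x (by linarith)) (κ := 1) (b := 0) Y.lim
      (by norm_num) (fun x _ => by linarith [(Y.mem x).1])
      (le_of_sq_le_sq (r.T1.trans p1.ge) (norm_nonneg _))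
    rw [H.σπ p0] at m
    exact le_of_mul_le_mul_left (a := U (π p)) (by linarith [hT _ p1]) (F.wa.wt.pos _)
  have := wmp_lap (u := fun q => 2 * y q + (e' - 1)) F.dim F.metG
    (isOpen_lt continuous_const H.sms.cont) (isClosed_le continuous_const H.sms.cont)
    (fun q (hq : 0 < s q) => hq.le) (fun q _ => (cAt_const.mul (Y.sm.c2 q)).add cAt_const)
    (fun q (hq : 0 < s q) => by rw [lap_affine, h0 q hq.le, mul_zero])
    (fun q hq k => by linarith [fold q (le_antisymm (not_lt.1 k) hq)]) (fun ε _ => by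
      obtain ⟨R', hR'⟩ := ev_cocompact.1 (Y.lim.eventually (lt_mem_nhds one_half_lt_one))
      exact ⟨R', fun q _ hq => by linarith [show 1 / 2 < y q from hR' q hq]⟩) q hq
  linarith

/-- **the lower bound** -/
theorem low (hz : R' ≤ ‖px z‖) :
    a * (1 - (R' / ‖px z‖) ^ (n - 2 : ℝ)) ≤ U z * (2 * y (σ z) - 1 + e') := by
  have m := H.low_σ r F P Y.sm (fun q hq => Y.harm q ⟨by linarith, fun k => by linarith⟩)
    (κ := 2) (b := e' - 1) Y.lim (by linarith)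
    (fun x hx => by linarith [H.up_pos r F P Y e0 hT (q := x) (by linarith)]) hz
  obtain ⟨ρ, ρ1, ρ2⟩ := P.flat
  have r0 := ρ2.pos.trans_le ρ1
  have m2 : 0 ≤ 1 - (R' / ‖px z‖) ^ (n - 2 : ℝ) := sub_nonneg.2 (Real.rpow_le_one (by positivity)
    ((div_le_one (r0.trans_le hz)).2 hz) (by linarith [show (3 : ℝ) ≤ n by exact_mod_cast F.dim]))
  nlinarith [mul_nonneg (mul_nonneg P.a0 e0) m2]

omit P e0 hT

/-- the upper bound in the neck, for any barrier -/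
theorem neck {d : ℝ} {b : D → ℝ} (d1 : d < 1) (e1 : 0 ≤ e)
    (hb : Smooth b) (b0 : ∀ q, 0 < s q → s q ^ 2 < d → lap G b q ≤ 0)
    (b1 : ∀ q, s q = 0 → 0 ≤ b q) (b2 : ∀ q, 0 < s q → s q ^ 2 = d → 1 ≤ b q) (h1 : 0 ≤ s q)
    (h2 : s q ^ 2 ≤ d) : 2 * y q - 1 ≤ e + b q := by
  have cs := H.sms.cont
  have k := wmp_cp (u := fun p => 1 * b p + -2 * y p + (1 + e)) (c := fun _ => 0)
    (O := {p | 0 < s p ∧ s p ^ 2 < d}) (K := {p | 0 ≤ s p ∧ s p ^ 2 ≤ d}) F.dim F.metG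
    ((isOpen_lt continuous_const cs).inter (isOpen_lt (cs.fun_pow 2) continuous_const))
    ((H.cpt F.flat.lt.le F.pos R').of_isClosed_subset ((isClosed_le continuous_const cs).inter
      (isClosed_le (cs.fun_pow 2) continuous_const)) fun p hp =>
        (H.lt_r r (by linarith [hp.1]) (hp.2.trans_lt d1)).le)
    (fun p hp => ⟨hp.1.le, hp.2.le⟩) (fun p _ => ((cAt_const.mul (hb.c2 p)).add
      (cAt_const.mul (Y.sm.c2 p))).add cAt_const) (fun p hp => ⟨le_rfl, ?_⟩) (fun p hp m => ?_)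
    q ⟨h1, h2⟩
  · linarith
  · rw [lap_add_const, F.metG.lap_lin (hb.c2 p) (Y.sm.c2 p),
      Y.harm p ⟨by linarith [hp.1], fun k => absurd k hp.1.not_gt⟩]
    linarith [b0 p hp.1 hp.2]
  · rcases hp.1.eq_or_lt with l | l
    · linarith [b1 p l.symm, Y.hi p l.symm]
    · linarith [b2 p l (le_antisymm hp.2 (not_lt.1 fun k => m ⟨l, k⟩)), (Y.mem p).2]

/-- **the neck bound** for the bent metric -/
theorem neckB {g' : Fld n M} (hg : Met g') {ε d C c' l₁ : ℝ} {Z : Set M} (ε0 : 0 < ε)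
    (K : Kb g' ps Z d C c' l₁) (eG : G = gB π g' s ε) (e1 : 0 ≤ e) (h1 : 0 ≤ s q)
    (h2 : s q ^ 2 ≤ d) :
    2 * y q - 1 ≤ e + (2 * s q + √(C * ε)) * s q * (Real.exp (l₁ * d) / d) := by
  have d0 := K.d0.1
  have k0 : 0 < Real.exp (l₁ * d) / d := by positivity
  have := H.neck r F Y (b := fun p => Real.exp (l₁ * d) / d * br ε C l₁ (s p))
    (K.d0.2.trans_lt one_half_lt_one) e1 (CD.mul cd_const ((cd_br ε0 K.C0 l₁).compM H.sms))
    (fun p p0 p1 => by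
      rw [lap_const_mul, eG]
      exact mul_nonpos_of_nonneg_of_nonpos k0.le (H.lapB hg ε0 K p0 p1.le))
    (fun p p0 => by rw [p0, br_zero, mul_zero]) (fun p p0 p1 => by
      refine le_trans (le_of_eq ?_) (mul_le_mul_of_nonneg_left (le_br ε0 K.C0 K.l0 p0.le) k0.le)
      rw [p1, ← mul_assoc, div_mul_cancel₀ _ d0.ne', ← Real.exp_add]
      simp) h1 h2
  nlinarith [mul_le_mul_of_nonneg_left (br_le ε0 K.C0 K.l0 h1) k0.le]

end Db

end Vale.Agent.P366M.G
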