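import Vale.Agent.P366E.Low
import Vale.Agent.P366B.Rows

/-!
# P366E: the rows `LOW` and `NECK`
-/

open Metric Filter Topology Set
open scoped ContDiff
open Vale.Agent.P366 Vale.Agent.P366.Stmt Vale.Agent.P366Z Vale.Agent.P366D

noncomputable section

namespace Vale.Agent.P366M.G

theorem Su.metU {n : ℕ} {M D : Type} [Mfe n M] [Mfe n D] {g : Fld n M} {U φ ps : M → ℝ}
    {R' Ra R T l c ε : ℝ} {π : D → M} {s : D → ℝ} {σ : M → D} {τ : D → D}
    (S : Su g U φ ps R' Ra R T l c ε π s σ τ) : Met (cf U g) :=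
  S.fr.met.cf S.fr.wa.wt.sm S.fr.wa.wt.pos

theorem low : LOW := fun n M _ g U a R' R₁ hn a0 hf hl U2 hs h1 => by
  have r0 := hf.pos
  have n3 : (3 : ℝ) ≤ n := by exact_mod_cast hn
  have k0 : 0 < 1 - (R' / R₁) ^ (n - 2 : ℝ) := sub_pos.2 (Real.rpow_lt_one
    (div_pos r0 (r0.trans h1)).le ((div_lt_one (r0.trans h1)).2 h1) (by linarith))
  have c0 : 0 < a * (1 - (R' / R₁) ^ (n - 2 : ℝ)) / 4 := by positivity
  obtain ⟨T₀, hT⟩ := exists_T hn a0 c0 hl R'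
  refine ⟨_, c0, T₀ ^ 2, fun T h2 D _ φ ps Ra R l c ε π s σ τ e y S Y x hx => ?_⟩
  have P : Up π s g U (gB π (cf U g) s ε) a R' := ⟨⟨R', le_rfl, hf⟩, a0.le,
    fun z hz => hs z hz.le, hl, fun q hq => S.db.isoB S.metU S.e0.1 (by linarith)
      (by nlinarith [S.e0.2])⟩
  have h3 := fun (z : M) (hz : ‖px z‖ ^ 2 = T) =>
    hT z (le_of_sq_le_sq (hz ▸ h2) (norm_nonneg _))
  have h4 := S.db.low S.rd S.fr P Y c0.le h3 (h1.le.trans hx)
  have h5 := S.db.up_pos S.rd S.fr P Y c0.le h3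
    (zero_le_one.trans (S.db.one_le S.rd (h1.le.trans hx)).2.1)
  have h6 : (R' / ‖px x‖) ^ (n - 2 : ℝ) ≤ (R' / R₁) ^ (n - 2 : ℝ) := Real.rpow_le_rpow
    (by positivity) (div_le_div_of_nonneg_left r0.le (r0.trans h1) hx) (by linarith)
  nlinarith [mul_le_mul_of_nonneg_right (U2 x) h5, mul_le_mul_of_nonneg_left h6 a0.le]

theorem neck : NECK := fun d C l₁ η d0 η0 => by
  have k0 : 0 < Real.exp (l₁ * d) / d := by positivity
  refine ⟨min (d / 2) (η / 2 / ((5 + |C|) * (Real.exp (l₁ * d) / d))), by positivity,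
    fun n M D _ _ g U φ ps R' Ra R T l c ε π s σ τ Z c' y h S K Y q h1 h2 => ?_⟩
  have e0 := S.e0.1
  have C0 := K.C0
  have h3 := (le_div_iff₀ (by positivity)).1 (h.trans (min_le_right _ _))
  have h4 := S.db.neckB S.rd S.fr Y S.metU e0 K rfl (half_pos η0).le h1
    (by linarith [h.trans (min_le_left _ _)])
  have h5 : (2 * s q + √(C * ε)) * s q ≤ ε * (5 + |C|) := by
    rw [abs_of_pos C0]
    nlinarith [Real.sq_sqrt (mul_pos C0 e0).le, sq_nonneg (√(C * ε) - s q), mul_pos C0 e0]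
  nlinarith [mul_le_mul_of_nonneg_right h5 k0.le]

end Vale.Agent.P366M.G
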