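import Vale.Agent.P366E.Mke2
import Vale.Agent.P366D.Dbl

/-!
# P366E: the hypersurface `q s = ps z` of `M × ℝ`
-/

open Metric Filter Topology Set Matrix
open scoped ContDiff
open Vale.Agent.P366 Vale.Agent.P366.Stmt Vale.Agent.P366D Vale.Agent.P366N

noncomputable section

namespace Vale.Agent.P366M.Lv

variable {n : ℕ} {M : Type} [Mf0 n M] {q : ℝ → ℝ} {ps : M → ℝ}

/-- the hypersurface -/
def S (q : ℝ → ℝ) (ps : M → ℝ) : Set (M × ℝ) := {p | q p.2 = ps p.1}

/-- the good charts -/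
structure Good (c : OpenPartialHomeomorph (S q ps) (E n)) : Prop where
  fst : ∀ y ∈ c.target, SmP (fun z => (c.symm z).1.1) y
  snd : ∀ y ∈ c.target, ContDiffAt ℝ ∞ (fun z => (c.symm z).1.2) y
  ext : ∀ p ∈ c.source, ∃ G : E n × ℝ → E n, ContDiffAt ℝ ∞ G (pt p.1.1, p.1.2) ∧
    ∀ᶠ p' in 𝓝 p, c p' = G (ch p.1.1 p'.1.1, p'.1.2)

theorem Good.lift {c : OpenPartialHomeomorph (S q ps) (E n)} (h : Good c) {k : ℕ}
    {ψ : E k → S q ps} {y : E k} (h0 : ContinuousAt ψ y) (hs : ψ y ∈ c.source)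
    (h1 : SmP (fun z => (ψ z).1.1) y) (h2 : ContDiffAt ℝ ∞ (fun z => (ψ z).1.2) y) :
    ContDiffAt ℝ ∞ (fun z => c (ψ z)) y := by
  obtain ⟨G, g1, g2⟩ := h.ext _ hs
  exact (g1.comp y (h1.sm.prodMk h2)).congr_of_eventuallyEq (h0.eventually g2)

theorem Good.cp {c c' : OpenPartialHomeomorph (S q ps) (E n)} (h : Good c) (h' : Good c') :
    Cp c c' := fun y hy hs => h'.lift (c.continuousAt_symm hy) hs (h.fst y hy) (h.snd y hy)

theorem exists_good (hq : ContDiff ℝ ∞ q) (hp : P366M.Smooth ps)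
    (reg : ∀ z t, q t = ps z → deriv q t = 0 → ∃ i, pd i ps z ≠ 0) (p : S q ps) :
    ∃ c, Good c ∧ p ∈ c.source := by
  have hb := ch_mem p.1.1
  have hz := mem_ch p.1.1
  let β₀ := (ch p.1.1).prod (OpenPartialHomeomorph.refl ℝ)
  let h : E n × ℝ → ℝ := fun w => q w.2 - loc (ch p.1.1) ps w.1
  have hh : ContDiff ℝ ∞ h := (hq.comp contDiff_snd).sub ((hp _ hb).comp contDiff_fst)
  have hq0 : p.1 ∈ β₀.source := ⟨hz, trivial⟩
  have ha := β₀.map_source hq0
  have hd := (hh.differentiable (by simp) (β₀ p.1)).hasFDerivAt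
  have hne : fderiv ℝ h (β₀ p.1) ≠ 0 := by
    have k1 := (hp.diff p.1.1).hasFDerivAt
    have k0 := (hq.differentiable (by simp) p.1.2).hasDerivAt.hasFDerivAt
    have k2 : HasFDerivAt h _ (β₀ p.1) := (k0.comp (f := Prod.snd) (β₀ p.1) hasFDerivAt_snd).sub
      (k1.comp (f := Prod.fst) (β₀ p.1) hasFDerivAt_fst)
    rw [k2.fderiv]
    intro k
    obtain ⟨i, hi⟩ := reg _ _ p.2 (by simpa using DFunLike.congr_fun k (0, 1))
    refine hi ((P366Z.pd_eq (hp.diff p.1.1) i).trans ?_)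
    simpa [fd] using DFunLike.congr_fun k (EuclideanSpace.single i 1, 0)
  obtain ⟨A, hA⟩ := exists_lin _ hne
  have hL : HasFDerivAt (fun w => ((A w).1, h w)) (A : E n × ℝ →L[ℝ] E n × ℝ) (β₀ p.1) := by
    refine ((hasFDerivAt_fst.comp _ A.hasFDerivAt).prodMk hd).congr_fderiv ?_
    ext v <;> simp [hA]
  obtain ⟨θ, t1, -, t3, t4⟩ := locdiff isOpen_univ (mem_univ _)
    (fun w _ => (contDiffAt_fst.comp w A.contDiff.contDiffAt).prodMk hh.contDiffAt) A hL
  have hs : ∀ p' ∈ (β₀.trans θ).source, p' ∈ S q ps ↔ ((β₀.trans θ) p').2 = 0 := fun p' hp' => by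
    have e : ((β₀.trans θ) p').2 = q p'.2 - ps p'.1 := by
      show (θ (β₀ p')).2 = _
      rw [t3]
      show q p'.2 - ps ((ch p.1.1).symm (ch p.1.1 p'.1)) = _
      rw [(ch p.1.1).left_inv hp'.1.1]
    rw [e, sub_eq_zero]
    rfl
  have key : ∀ y ∈ (slice _ hs p).target, ContDiffAt ℝ ∞ (fun z : E n => θ.symm (z, 0)) y ∧
      ∀ᶠ z in 𝓝 y, ((slice _ hs p).symm z).1 =
        ((ch p.1.1).symm (θ.symm (z, 0)).1, (θ.symm (z, 0)).2) := fun y hy => by
    refine ⟨(t4.inv _ hy.1).comp y (contDiffAt_id.prodMk contDiffAt_const), ?_⟩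
    filter_upwards [(slice _ hs p).open_target.mem_nhds hy] with z hz
    rw [slice_symm _ _ _ hz]
    rfl
  refine ⟨slice _ hs p, ⟨fun y hy => ?_, fun y hy => ?_, fun p' hp' => ?_⟩, hq0, t1⟩
  · obtain ⟨k1, k3⟩ := key y hy
    exact (smP_symm_comp hb (contDiffAt_fst.comp y k1)).congr (k3.mono fun z hz => by
      simp only [hz, Function.comp])
  · obtain ⟨k1, k3⟩ := key y hy
    exact (contDiffAt_snd.comp y k1).congr_of_eventuallyEq (k3.mono fun z hz => by
      simp only [hz, Function.comp])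
  · have k1 : (ch p'.1.1).symm (pt p'.1.1) ∈ (ch p.1.1).source := by
      rw [symm_pt]; exact hp'.1.1
    refine ⟨fun w => (θ (tm (ch p'.1.1) (ch p.1.1) w.1, w.2)).1, contDiffAt_fst.comp _
      (ContDiffAt.comp (g := θ) _ ?_ ((ContDiffAt.comp (f := Prod.fst) (pt p'.1.1, p'.1.2)
        (tm_cd (ch_mem _) hb k1) contDiffAt_fst).prodMk contDiffAt_snd)), ?_⟩
    · simp only [tm, symm_pt]
      exact t4.fw _ hp'.2
    · filter_upwards [(continuous_fst.comp continuous_subtype_val).continuousAt.eventually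
        ((ch p'.1.1).open_source.mem_nhds (mem_ch _))] with z hz
      have hz' : z.1.1 ∈ (ch p'.1.1).source := hz
      simp only [tm, (ch p'.1.1).left_inv hz']
      rfl

/-- the atlas of the hypersurface -/
def atl (hq : ContDiff ℝ ∞ q) (hp : P366M.Smooth ps)
    (reg : ∀ z t, q t = ps z → deriv q t = 0 → ∃ i, pd i ps z ≠ 0) : Atl (S q ps) (E n) where
  s := {c | Good c}
  cov := exists_good hq hp reg
  cp _ h _ h' := h.cp h'

/-- the charts of a manifold which is modelled on an atlas -/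
theorem exists_rel {P D : Type} [TopologicalSpace P] [Mf0 n D] {A : Atl P (E n)} {h : P ≃ₜ D}
    (H : ∀ c, A.Mx c → c.target = univ → ∃ e ∈ At D, Rel h c e) {c : Ch n P} (hc : A.Mx c) {p : P}
    (hp : p ∈ c.source) : ∃ e ∈ At D, h p ∈ e.source ∧ e (h p) = c p ∧
      (∀ᶠ y in 𝓝 (c p), e.symm y = h (c.symm y)) ∧ ∀ᶠ p' in 𝓝 p, e (h p') = c p' := by
  obtain ⟨b, b1, b2, b3, -, b5, r, hr, -, b6⟩ := hc.germ hp univ_mem
  obtain ⟨e, e1, e2⟩ := H b b1 b2
  refine ⟨e, e1, (e2.src p).2 b3, (e2.app p).trans b5, ?_, ?_⟩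
  · filter_upwards [ball_mem_nhds _ hr] with y hy
    rw [e2.symm, b6 y hy]
  · filter_upwards [c.open_source.mem_nhds hp, (c.continuousAt hp).eventually (ball_mem_nhds _ hr)]
      with z z1 z2
    rw [e2.app]
    conv_lhs => rw [← c.left_inv z1, ← b6 _ z2]
    exact b.right_inv (b2 ▸ mem_univ _)

theorem imm_of {D : Type} [Mf0 n D] {π : D → M} {s : D → ℝ} {x : D} (hπ : SmM π x) (hs : DAt s x)
    {H : E n × ℝ → E n} (hH : DifferentiableAt ℝ H (pt (π x), s x))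
    (e : ∀ᶠ z in 𝓝 x, ch x z = H (ch (π x) (π z), s z)) {ξ : Fin n → ℝ} (h1 : jm π x *ᵥ ξ = 0)
    (h2 : ∑ i, ξ i * pd i s x = 0) : ξ = 0 := by
  have a3 := (hπ.cd_pt.differentiableAt (by simp)).hasFDerivAt
  have a5 := a3.prodMk hs.hasFDerivAt
  refine congrArg WithLp.ofLp (ker_zero (F := fun z => (ch (π x) (π z), s z))
    (ξ := WithLp.toLp 2 ξ) a5.differentiableAt hH e ((DFunLike.congr_fun a5.fderiv _).trans
      (Prod.ext ?_ ((P366Z.fderiv_eq_sum hs _).trans h2))))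
  ext a
  have b1 := ((EuclideanSpace.proj (𝕜 := ℝ) a).hasFDerivAt.comp _ a3).fderiv
  have b2 := P366Z.fderiv_eq_sum (diff_coord a3.differentiableAt a) (WithLp.toLp 2 ξ)
  refine (DFunLike.congr_fun b1 _).symm.trans (b2.trans (Eq.trans ?_ (congrFun h1 a)))
  exact Finset.sum_congr rfl fun i _ => mul_comm _ _

/-- the properties of a manifold which is modelled on the hypersurface -/
structure Md {D : Type} [Mf0 n D] (h : S q ps ≃ₜ D) : Prop where
  smπ : ∀ x, SmM (fun x => (h.symm x).1.1) x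
  sms : P366M.Smooth fun x => (h.symm x).1.2
  imm : ∀ x (ξ : Fin n → ℝ), jm (fun x => (h.symm x).1.1) x *ᵥ ξ = 0 →
    ∑ i, ξ i * pd i (fun x => (h.symm x).1.2) x = 0 → ξ = 0
  lift : ∀ (W : Type) [Mf0 n W] (ψ : W → S q ps) (w : W), ContinuousAt ψ w →
    SmM (fun z => (ψ z).1.1) w → CAt ∞ (fun z => (ψ z).1.2) w → SmM (fun z => h (ψ z)) w

theorem md {D : Type} [Mf0 n D] {hq : ContDiff ℝ ∞ q} {hp : P366M.Smooth ps}
    {reg : ∀ z t, q t = ps z → deriv q t = 0 → ∃ i, pd i ps z ≠ 0} {h : S q ps ≃ₜ D}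
    (H : ∀ c, (atl hq hp reg).Mx c → c.target = univ → ∃ e ∈ At D, Rel h c e) : Md h := by
  have key : ∀ p, ∃ c, Good c ∧ p ∈ c.source ∧ ∃ e ∈ At D, h p ∈ e.source ∧ e (h p) = c p ∧
      (∀ᶠ y in 𝓝 (c p), e.symm y = h (c.symm y)) ∧ ∀ᶠ p' in 𝓝 p, e (h p') = c p' := fun p => by
    obtain ⟨c, c1, c2⟩ := exists_good hq hp reg p
    exact ⟨c, c1, c2, exists_rel H ((atl hq hp reg).mx c1) c2⟩
  have hπ : ∀ x, SmM (fun x => (h.symm x).1.1) x := fun x => by
    obtain ⟨p, rfl⟩ := h.surjective x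
    obtain ⟨c, c1, c2, e, e1, e2, e3, e4, -⟩ := key p
    refine smM_of e1 e2 ?_
    rw [e3]
    exact (c1.fst _ (c.map_source c2)).congr (e4.mono fun y hy => by
      simp only [loc, hy, h.symm_apply_apply])
  have hs : P366M.Smooth fun x => (h.symm x).1.2 := cd_of_cAt le_rfl fun x => by
    obtain ⟨p, rfl⟩ := h.surjective x
    obtain ⟨c, c1, c2, e, e1, e2, e3, e4, -⟩ := key p
    rw [← e.left_inv e2, e3]
    exact cAt_of_loc le_rfl e1 ((c1.snd _ (c.map_source c2)).congr_of_eventuallyEq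
      (e4.mono fun y hy => by simp only [loc, hy, h.symm_apply_apply]))
  refine ⟨hπ, hs, fun x ξ h1 h2 => ?_, fun W _ ψ w h0 h1 h2 => ?_⟩
  · obtain ⟨p, rfl⟩ := h.surjective x
    obtain ⟨c, c1, c2, e, e1, e2, e3, -, e5⟩ := key p
    obtain ⟨G, g1, g2⟩ := c1.ext p c2
    have b1 : Tendsto h.symm (𝓝 (h p)) (𝓝 p) := by
      simpa only [h.symm_apply_apply] using h.symm.continuous.tendsto (h p)
    refine imm_of (hπ _) (hs.diff _) (H := fun v => tm e (ch (h p)) (G v)) ?_ ?_ h1 h2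
    · rw [h.symm_apply_apply]
      refine DifferentiableAt.comp (g := tm e (ch (h p))) _ ?_ (g1.differentiableAt (by simp))
      have : G (pt p.1.1, p.1.2) = e (h p) := by rw [e3]; exact g2.self_of_nhds.symm
      rw [this]
      exact tm_diff e1 (ch_mem _) (by rw [e.left_inv e2]; exact mem_ch _)
    · filter_upwards [b1.eventually g2, b1.eventually e5, e.open_source.mem_nhds e2] with z z1 z2 z3
      simp only [h.symm_apply_apply, ← z1, ← z2, h.apply_symm_apply, tm, e.left_inv z3]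
  · obtain ⟨c, c1, c2, e, e1, e2, -, -, e5⟩ := key (ψ w)
    have b0 : ContinuousAt (loc (ch w) ψ) (pt w) := (contAt_iff (ch_mem w)).1 (by rwa [symm_pt])
    refine smP_of (h.continuous.continuousAt.comp b0) e1 (by rwa [loc_pt]) ?_
    refine (c1.lift b0 (by rwa [loc_pt]) h1 h2).congr_of_eventuallyEq ?_
    exact b0.eventually (p := fun p' => e (h p') = c p') (by rwa [loc_pt])

end Vale.Agent.P366M.Lv
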