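import Vale.Agent.P366H.Far
import Vale.Agent.P366M.Solv2

/-!
# P366E: ends which differ by a scaling
-/

open Metric Filter Topology Set Matrix
open scoped ContDiff
open Vale.Agent.P366 Vale.Agent.P366.Stmt Vale.Agent.P366Z

noncomputable section

namespace Vale.Agent.P366M.G

variable {n : ℕ} {M D : Type} [Mfe n M] [Mfe n D]

/-- far out `u'` is `u` in the scaled coordinates -/
def Sc (l r : ℝ) (u : M → ℝ) (u' : D → ℝ) : Prop := ∀ y : E n, r ≤ ‖y‖ → fe u' (l • y) = fe u y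

section Sc

variable {l r ρ ρ' a β : ℝ} {u U : M → ℝ} {u' U' : D → ℝ} {y : E n} {g : Fld n M} {g' : Fld n D}

theorem norm_sc (hl : 0 < l) (y : E n) : ‖l • y‖ = l * ‖y‖ := by
  rw [norm_smul, Real.norm_of_nonneg hl.le]

theorem Sc.mono (h : Sc l r u u') {r' : ℝ} (e : r ≤ r') : Sc l r' u u' := fun y hy =>
  h y (e.trans hy)

theorem Sc.symm (h : Sc l r u u') (hl : 0 < l) : Sc l⁻¹ (l * r) u' u := fun y hy => by
  rw [← h _ (by rwa [norm_sc (inv_pos.2 hl), le_inv_mul_iff₀ hl]), smul_inv_smul₀ hl.ne']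

theorem Sc.ev (h : Sc l r u u') (hy : r < ‖y‖) : fe u =ᶠ[𝓝 y] fun z => fe u' (l • z) :=
  (ev_lt_norm hy).mono fun z hz => (h z hz.le).symm

theorem Sc.asy' (h : Sc l r u u') (hl : 0 < l) (H : Asy u' a β) :
    Asy u a (β * l ^ (2 - n : ℝ)) :=
  asy_iff.2 (asy_congr (fun y hy => (h y hy).symm) (P366H.asy_scale (asy_iff.1 H) hl))

theorem Sc.asy (h : Sc l r u u') (hl : 0 < l) (H : Asy u a β) :
    Asy u' a (β * l⁻¹ ^ (2 - n : ℝ)) := (h.symm hl).asy' (inv_pos.2 hl) H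

theorem Sc.tendsto' (h : Sc l r u u') (hl : 0 < l) {F : Filter ℝ}
    (H : Tendsto u' (cocompact D) F) : Tendsto u (cocompact M) F :=
  tendsto_fe.2 (((tendsto_fe.1 H).comp (Homeomorph.smulOfNeZero l hl.ne').map_cocompact.le).congr'
    (ev_cocompactE.2 ⟨r, h⟩))

theorem Sc.tendsto (h : Sc l r u u') (hl : 0 < l) {F : Filter ℝ}
    (H : Tendsto u (cocompact M) F) : Tendsto u' (cocompact D) F :=
  (h.symm hl).tendsto' (inv_pos.2 hl) H

theorem Sc.fd_eq (h : Sc l r u u') (hy : r < ‖y‖) (h1 : R0 M ≤ ‖y‖) (h2 : R0 D ≤ ‖l • y‖) :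
    fd u (yp y) = l • fd u' (yp (l • y)) := by
  rw [yp, yp, fd_ye h1, fd_ye h2, ← fe_eq, ← fe_eq, (h.ev hy).fderiv_eq, fderiv_comp_smul]

theorem Sc.lap_eq (h : Sc l r u u') (hy : r < ‖y‖) (h1 : R0 M < ‖y‖) (h2 : R0 D < ‖l • y‖) :
    lap (eu n) u (yp y) = l ^ 2 * lap (eu n) u' (yp (l • y)) := by
  rw [yp, yp, lap_ye h1, lap_ye h2, fj_eu, fj_eu, ← fe_eq, ← fe_eq, P366Z.lap_congr (h.ev hy),
    P366H.lap_scale]

theorem Sc.lap (h : Sc l r u u') (hl : 0 < l) (hf : Flat g ρ) (hf' : Flat g' ρ') : ∃ r',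
    ∀ y : E n, r' ≤ ‖y‖ → lap g u (yp y) = l ^ 2 * lap g' u' (yp (l • y)) := by
  refine ⟨max (max r ρ) (ρ' / l) + 1, fun y hy => ?_⟩
  have h0 : max (max r ρ) (ρ' / l) < ‖y‖ := by linarith
  simp only [max_lt_iff] at h0
  have h1 : ρ' < ‖l • y‖ := by rw [norm_sc hl]; exact (div_lt_iff₀' hl).1 h0.2
  rw [hf.lap_eq (by rw [px_yp (by linarith [hf.R])]; exact h0.1.2),
    hf'.lap_eq (by rwa [px_yp (by linarith [hf'.R])]),
    h.lap_eq h0.1.1 (hf.lt.trans h0.1.2) (hf'.lt.trans h1)]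

theorem far_sc (hl : 0 < l) {p : D → Prop} (H : ∀ y : E n, r ≤ ‖y‖ → p (yp (l • y))) {q : D}
    (hq : max (l * r) (R0 D) ≤ ‖px q‖) : p q := by
  have := H (l⁻¹ • px q) (by
    rw [norm_sc (inv_pos.2 hl), le_inv_mul_iff₀ hl]; exact le_of_max_le_left hq)
  rwa [smul_inv_smul₀ hl.ne', yp_px (by linarith [le_of_max_le_right hq])] at this

theorem Sc.fd_bdd (h : Sc l r u u') (hl : 0 < l) (hu : CD 1 u') {C : ℝ} (H : ∀ x, ‖fd u x‖ ≤ C) :
    ∃ K, 0 < K ∧ ∀ q, ‖fd u' q‖ ≤ K :=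
  fd_bdd_of_out hu (C := C / l) (R := max (l * (max (max r (R0 M)) (R0 D / l) + 1)) (R0 D))
    fun q hq => far_sc hl (p := fun q => ‖fd u' q‖ ≤ C / l) (fun y hy => by
      have h0 : max (max r (R0 M)) (R0 D / l) < ‖y‖ := by linarith
      simp only [max_lt_iff] at h0
      have := H (yp y)
      rwa [h.fd_eq h0.1.1 h0.1.2.le (by rw [norm_sc hl]; exact ((div_lt_iff₀' hl).1 h0.2).le),
        norm_smul, Real.norm_of_nonneg hl.le, ← le_div_iff₀' hl] at this) hq.le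

/-- the transfer of the weights -/
theorem Sc.wa (h : Sc l r U U') (hl : 0 < l) (hf : Flat g ρ) (hg' : Met g') (hf' : Flat g' ρ')
    (hU : Wa g U) (sU : Smooth U') (U0 : ∀ q, 0 < U' q) : Wa g' U' := by
  obtain ⟨c, c0, C, hC⟩ := hU.wt.bd
  obtain ⟨R, S, hS⟩ := hU.far
  obtain ⟨r', hr⟩ := h.lap hl hf hf'
  have sQ : Smooth fun q => P366M.lap g' U' q / U' q :=
    CD.div (hg'.sm_lap sU) sU fun q => (U0 q).ne'
  have hQ : Sc l (max r r') (fun x => (l ^ 2)⁻¹ * (P366M.lap g U x / U x))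
      fun q => P366M.lap g' U' q / U' q := fun y hy => by
    have := h y (le_of_max_le_left hy)
    simp only [fe] at this ⊢
    rw [this, hr y (le_of_max_le_right hy)]
    field_simp
  obtain ⟨k, k0, hk⟩ := low_of_const sU.cont U0 c0 (R := max (l * r) (R0 D)) fun q hq =>
    far_sc hl (p := fun q => c ≤ U' q) (fun y hy => (hC (yp y)).1.trans_eq (h y hy).symm) hq.le
  obtain ⟨K1, -, h1⟩ := bdd_of_out sU.cont (C := C) (R := max (l * r) (R0 D)) fun q hq =>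
    far_sc hl (p := fun q => ‖U' q‖ ≤ C) (fun y hy => by
      rw [Real.norm_of_nonneg (U0 _).le]
      exact (h y hy).trans_le (hC (yp y)).2.1) hq.le
  obtain ⟨K2, -, h2⟩ := h.fd_bdd hl sU.one fun x => (hC x).2.2.1
  obtain ⟨K3, -, h3⟩ := bdd_of_out sQ.cont (C := (l ^ 2)⁻¹ * C) (R := max (l * max r r') (R0 D))
    fun q hq => far_sc hl (p := fun q => ‖P366M.lap g' U' q / U' q‖ ≤ (l ^ 2)⁻¹ * C)
      (fun y hy => by
        rw [show P366M.lap g' U' (yp (l • y)) / U' (yp (l • y)) = _ from hQ y hy, fe, norm_mul,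
          Real.norm_of_nonneg (by positivity)]
        exact mul_le_mul_of_nonneg_left (hC (yp y)).2.2.2.1 (by positivity)) hq.le
  obtain ⟨K4, -, h4⟩ := hQ.fd_bdd hl sQ.one (C := (l ^ 2)⁻¹ * C) fun x => by
    rw [show fd (fun x => (l ^ 2)⁻¹ * (P366M.lap g U x / U x)) x =
      (l ^ 2)⁻¹ • fd (fun x => P366M.lap g U x / U x) x from
        congrFun (fderiv_const_smul_field (𝕜 := ℝ)
          (f := loc (ch x) fun x => P366M.lap g U x / U x) (l ^ 2)⁻¹) (pt x),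
      norm_smul, Real.norm_of_nonneg (by positivity)]
    exact mul_le_mul_of_nonneg_left (hC x).2.2.2.2 (by positivity)
  refine ⟨⟨sU, k, k0, max (max K1 K2) (max K3 K4), fun q => ⟨hk q, ?_, ?_, ?_, ?_⟩⟩,
    max (l * max (max R r') (R0 M)) (R0 D), S * l ^ (n : ℝ), fun q hq => ?_⟩
  · exact le_max_of_le_left (le_max_of_le_left ((le_abs_self _).trans (h1 q)))
  · exact le_max_of_le_left (le_max_of_le_right (h2 q))
  · exact le_max_of_le_right (le_max_of_le_left (h3 q))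
  · exact le_max_of_le_right (le_max_of_le_right (h4 q))
  · refine far_sc hl (r := max (max (max R r') (R0 M)) (R0 D / l))
      (p := fun q => |P366M.lap g' U' q| ≤ S * l ^ (n : ℝ) * ‖px q‖ ^ (-(n + 2) : ℝ))
      (fun y hy => ?_) ?_
    · simp only [max_le_iff] at hy
      have k1 := hS (yp y) (by rw [px_yp (by linarith)]; exact hy.1.1.1)
      rw [hr y hy.1.1.2, px_yp (by linarith), abs_mul, abs_of_pos (by positivity : 0 < l ^ 2),
        ← le_div_iff₀' (by positivity)] at k1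
      rw [px_yp (by rw [norm_sc hl]; linarith [(div_le_iff₀' hl).1 hy.2]), norm_sc hl,
        Real.mul_rpow hl.le (norm_nonneg _)]
      refine k1.trans_eq ?_
      rw [neg_add, Real.rpow_add hl, Real.rpow_neg hl.le, Real.rpow_neg hl.le, Real.rpow_two]
      have := Real.rpow_pos_of_pos hl n
      field_simp
    · rwa [mul_max_of_nonneg _ _ hl.le, mul_div_cancel₀ _ hl.ne', max_assoc, max_self]

end Sc

end Vale.Agent.P366M.G
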